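import Vale.Agent.Lib.P262.St.Final
import Vale.Agent.Lib.P262.Ban.BanBound

/-!
The Euclidean Steinitz constant satisfies `S₂(d) ≤ K √(d log (d+2))` for an absolute constant `K`,
with no dependence on the number of vectors and no hypothesis. The rearrangement bound of Banaszczyk
that enters the argument is itself proved in these files, with a new elementary proof of the key
lemma from the midpoint Prekopa-Leindler inequality.
-/

namespace Vale.Agent.Results.P262.A0_steinitz

open Vale.Agent.Lib.P262.St

theorem result :
    ∃ K : ℝ, 0 < K ∧ ∀ (d N : ℕ) (v : Fin N → EuclideanSpace ℝ (Fin d)), (∀ i, ‖v i‖ ≤ 1) →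
      ∑ i, v i = 0 → ∃ π : Equiv.Perm (Fin N), ∀ m : ℕ, m ≤ N →
        ‖∑ i ∈ Finset.univ.filter (fun i : Fin N => i.val < m), v (π i)‖
          ≤ K * Real.sqrt (d * Real.log (d + 2)) :=
  final (by norm_num) Vale.Agent.Lib.P262.Ban.banBound

end Vale.Agent.Results.P262.A0_steinitz
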