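import Mathlib
import Vale.Agent.Lib.P262.LowerGeneral

namespace Vale.Agent.Results.P262.D_lower_general

open Finset

/-- For every `d ≥ 2` the signed-prefix constant satisfies `σ(d) ≥ √(d+1)`, strictly above the
orthonormal-basis bound `√d`: for every `r < √(d+1)` there is a finite sequence in the closed
unit ball of `ℝ^d` such that under every choice of signs some prefix sum has norm above `r`. -/
theorem result (d : ℕ) (hd : 2 ≤ d) (r : ℝ) (hr : r < √((d : ℝ) + 1)) :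
    ∃ (N : ℕ) (v : ℕ → EuclideanSpace ℝ (Fin d)), (∀ i, ‖v i‖ ≤ 1) ∧
      ∀ ε : ℕ → ℝ, (∀ i, ε i = 1 ∨ ε i = -1) →
        ∃ k ≤ N, r < ‖∑ i ∈ range k, ε i • v i‖ := by
  rcases lt_or_ge r 0 with hneg | hnn
  · refine ⟨0, fun _ => 0, by simp, ?_⟩
    intro ε _
    exact ⟨0, le_rfl, by simpa using hneg⟩
  · have hd0 : (0 : ℝ) ≤ (d : ℝ) + 1 := by positivity
    have h3 : r ^ 2 < (d : ℝ) + 1 := by
      have := Real.sq_sqrt hd0
      nlinarith [Real.sqrt_nonneg ((d : ℝ) + 1)]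
    obtain ⟨L, hL, hF⟩ := Vale.Agent.Lib.P262.exists_list d hd ((r ^ 2 + ((d : ℝ) + 1)) / 2)
      (by linarith)
    obtain ⟨N, v, hv, h⟩ := Vale.Agent.Lib.P262.forced_zero_to_seq hL hF
    refine ⟨N, v, hv, ?_⟩
    intro ε hε
    obtain ⟨k, hk, hρ⟩ := h ε hε
    refine ⟨k, hk, ?_⟩
    have : r ^ 2 < ‖∑ i ∈ range k, ε i • v i‖ ^ 2 := by linarith
    exact lt_of_pow_lt_pow_left₀ 2 (norm_nonneg _) this

end Vale.Agent.Results.P262.D_lower_general
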