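import Mathlib
import Vale.Agent.Lib.P262.UpperTwo
import Vale.Agent.Lib.P262.Forced

namespace Vale.Agent.Results.P262.E_sigma_two

open Finset

/-- The exact value of the signed-prefix constant of the Euclidean plane: `σ(2) = √3`.
First part: every finite sequence in the closed unit disc has a signing with all partial sums
of norm at most `√3`. Second part: no smaller constant works. -/
theorem result :
    (∀ (N : ℕ) (v : ℕ → EuclideanSpace ℝ (Fin 2)), (∀ i < N, ‖v i‖ ≤ 1) →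
      ∃ ε : ℕ → ℝ, (∀ i, ε i = 1 ∨ ε i = -1) ∧
        ∀ k ≤ N, ‖∑ i ∈ range k, ε i • v i‖ ≤ √3) ∧
    (∀ r < √3, ∃ (N : ℕ) (v : ℕ → EuclideanSpace ℝ (Fin 2)), (∀ i, ‖v i‖ ≤ 1) ∧
      ∀ ε : ℕ → ℝ, (∀ i, ε i = 1 ∨ ε i = -1) →
        ∃ k ≤ N, r < ‖∑ i ∈ range k, ε i • v i‖) := by
  refine ⟨Vale.Agent.Lib.P262.upper_two, ?_⟩
  intro r hr
  rcases lt_or_ge r 0 with hneg | hnn
  · refine ⟨0, fun _ => 0, by simp, ?_⟩
    intro ε _
    exact ⟨0, le_rfl, by simpa using hneg⟩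
  · have h3 : r ^ 2 < 3 := by
      have := Real.sq_sqrt (show (0 : ℝ) ≤ 3 by norm_num)
      nlinarith [Real.sqrt_nonneg 3]
    obtain ⟨L, hL, hF⟩ := Vale.Agent.Lib.P262.plane_list ((r ^ 2 + 3) / 2) (by linarith)
    obtain ⟨N, v, hv, h⟩ := Vale.Agent.Lib.P262.forced_zero_to_seq hL hF
    refine ⟨N, v, hv, ?_⟩
    intro ε hε
    obtain ⟨k, hk, hρ⟩ := h ε hε
    refine ⟨k, hk, ?_⟩
    have : r ^ 2 < ‖∑ i ∈ range k, ε i • v i‖ ^ 2 := by linarith
    exact lt_of_pow_lt_pow_left₀ 2 (norm_nonneg _) this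

end Vale.Agent.Results.P262.E_sigma_two
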