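import Vale.Agent.Results.P262.A0_steinitz
import Vale.Agent.Results.P262.D_lower_general
import Vale.Agent.Results.P262.E_sigma_two

open Finset

namespace Vale.Agent.Results.P262.AAA_union

/-- The rearrangement bound `S_2(d) = O(√(d log d))`, the lower bound `σ(d) ≥ √(d + 1)` and the exact
value `σ(2) = √3`. -/
theorem result :
    (∃ K : ℝ, 0 < K ∧ ∀ (d N : ℕ) (v : Fin N → EuclideanSpace ℝ (Fin d)), (∀ i, ‖v i‖ ≤ 1) →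
      ∑ i, v i = 0 → ∃ π : Equiv.Perm (Fin N), ∀ m : ℕ, m ≤ N →
        ‖∑ i ∈ Finset.univ.filter (fun i : Fin N => i.val < m), v (π i)‖
          ≤ K * Real.sqrt (d * Real.log (d + 2))) ∧
    (∀ (d : ℕ), 2 ≤ d → ∀ r : ℝ, r < √((d : ℝ) + 1) →
      ∃ (N : ℕ) (v : ℕ → EuclideanSpace ℝ (Fin d)), (∀ i, ‖v i‖ ≤ 1) ∧
        ∀ ε : ℕ → ℝ, (∀ i, ε i = 1 ∨ ε i = -1) →
          ∃ k ≤ N, r < ‖∑ i ∈ range k, ε i • v i‖) ∧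
    (∀ (N : ℕ) (v : ℕ → EuclideanSpace ℝ (Fin 2)), (∀ i < N, ‖v i‖ ≤ 1) →
      ∃ ε : ℕ → ℝ, (∀ i, ε i = 1 ∨ ε i = -1) ∧
        ∀ k ≤ N, ‖∑ i ∈ range k, ε i • v i‖ ≤ √3) ∧
    (∀ r < √3, ∃ (N : ℕ) (v : ℕ → EuclideanSpace ℝ (Fin 2)), (∀ i, ‖v i‖ ≤ 1) ∧
      ∀ ε : ℕ → ℝ, (∀ i, ε i = 1 ∨ ε i = -1) →
        ∃ k ≤ N, r < ‖∑ i ∈ range k, ε i • v i‖) :=
  ⟨Vale.Agent.Results.P262.A0_steinitz.result,
    fun d hd r hr => Vale.Agent.Results.P262.D_lower_general.result d hd r hr,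
    Vale.Agent.Results.P262.E_sigma_two.result.1,
    Vale.Agent.Results.P262.E_sigma_two.result.2⟩

end Vale.Agent.Results.P262.AAA_union
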