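import Vale.Agent.Lib.P262.St.Final

/-!
If Banaszczyk's 2012 bound holds with some constant `C` (every zero-sum family of `N` vectors in the
Euclidean unit ball of `ℝ^k` has an order with all partial sums of norm at most
`C (√k + √(log (N+1)))`), then the Euclidean Steinitz constant satisfies
`S₂(d) ≤ K √(d log (d+2))` with `K` depending only on `C`: the dependence on `N` disappears.
-/

namespace Vale.Agent.Results.P262.A_steinitz

open Vale.Agent.Lib.P262.St

theorem result (C : ℝ) (hC : 0 ≤ C) (H : BanBound C) :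
    ∃ K : ℝ, 0 < K ∧ ∀ (d N : ℕ) (v : Fin N → EuclideanSpace ℝ (Fin d)), (∀ i, ‖v i‖ ≤ 1) →
      ∑ i, v i = 0 → ∃ π : Equiv.Perm (Fin N), ∀ m : ℕ, m ≤ N →
        ‖∑ i ∈ Finset.univ.filter (fun i : Fin N => i.val < m), v (π i)‖
          ≤ K * Real.sqrt (d * Real.log (d + 2)) :=
  final hC H

end Vale.Agent.Results.P262.A_steinitz
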